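import Mathlib

/-!
# P166: universality of the pressure in the eigenvalues, finite `N`
-/

namespace Vale.Agent.P166U

open MeasureTheory Matrix

/-- the pressure `P_N(β)` of the Ising model with coupling matrix `J = Uᵀ Λ U`, `Λ = diag lam` -/
noncomputable def pressure {N : ℕ} (β : ℝ) (lam : Fin N → ℝ) (U : Matrix (Fin N) (Fin N) ℝ) : ℝ :=
  1 / N * Real.log (1 / 2 ^ N * ∑ σ ∈ Fintype.piFinset (fun _ : Fin N => ({-1, 1} : Finset ℝ)),
    Real.exp (β / 2 * (σ ⬝ᵥ ((Uᵀ * diagonal lam * U) *ᵥ σ))))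

/-- the sign vectors -/
noncomputable def cube (N : ℕ) : Finset (Fin N → ℝ) :=
  Fintype.piFinset (fun _ : Fin N => ({-1, 1} : Finset ℝ))

theorem cube_nonempty (N : ℕ) : (cube N).Nonempty :=
  ⟨fun _ => 1, by simp [cube]⟩

theorem cube_sq {N : ℕ} {σ : Fin N → ℝ} (h : σ ∈ cube N) (i : Fin N) : σ i ^ 2 = 1 := by
  have := (Fintype.mem_piFinset.1 h) i
  rcases Finset.mem_insert.1 this with h | h
  · rw [h]; norm_num
  · rw [Finset.mem_singleton.1 h]; norm_num

/-- energy -/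
noncomputable def en {N : ℕ} (β : ℝ) (lam : Fin N → ℝ) (U : Matrix (Fin N) (Fin N) ℝ)
    (σ : Fin N → ℝ) : ℝ := β / 2 * ∑ i, lam i * ((U *ᵥ σ) i) ^ 2

theorem quad {N : ℕ} (lam : Fin N → ℝ) (U : Matrix (Fin N) (Fin N) ℝ) (σ : Fin N → ℝ) :
    σ ⬝ᵥ ((Uᵀ * diagonal lam * U) *ᵥ σ) = ∑ i, lam i * ((U *ᵥ σ) i) ^ 2 := by
  rw [← mulVec_mulVec, ← mulVec_mulVec, dotProduct_mulVec, vecMul_transpose, dotProduct]
  refine Finset.sum_congr rfl fun i _ => ?_
  rw [mulVec_diagonal]
  ring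

theorem norm_rot {N : ℕ} {U : Matrix (Fin N) (Fin N) ℝ} (hU : U ∈ orthogonalGroup (Fin N) ℝ)
    {σ : Fin N → ℝ} (h : σ ∈ cube N) : ∑ i, ((U *ᵥ σ) i) ^ 2 = N := by
  have h1 := quad (fun _ => (1 : ℝ)) U σ
  have h2 : Uᵀ * U = 1 := by
    have := (mem_orthogonalGroup_iff' (Fin N) ℝ).1 hU
    simpa [star_eq_conjTranspose] using this
  simp only [diagonal_one, mul_one, one_mul, h2, one_mulVec] at h1
  rw [← h1, dotProduct]
  rw [Finset.sum_congr rfl fun i _ => (by rw [← pow_two, cube_sq h] : σ i * σ i = 1)]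
  simp

/-- partition function -/
noncomputable def Z {N : ℕ} (β : ℝ) (lam : Fin N → ℝ) (U : Matrix (Fin N) (Fin N) ℝ) : ℝ :=
  ∑ σ ∈ cube N, Real.exp (en β lam U σ)

theorem Z_pos {N : ℕ} (β : ℝ) (lam : Fin N → ℝ) (U : Matrix (Fin N) (Fin N) ℝ) :
    0 < Z β lam U := Finset.sum_pos (fun _ _ => Real.exp_pos _) (cube_nonempty N)

theorem pressure_eq {N : ℕ} (β : ℝ) (lam : Fin N → ℝ) (U : Matrix (Fin N) (Fin N) ℝ) :
    pressure β lam U = 1 / N * (Real.log (1 / 2 ^ N) + Real.log (Z β lam U)) := by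
  unfold pressure
  rw [Real.log_mul (by positivity)]
  · simp only [quad]
    rfl
  · simp only [quad]
    exact (Z_pos β lam U).ne'

/-- the derivative of the pressure in the eigenvalues -/
noncomputable def gr {N : ℕ} (β : ℝ) (lam : Fin N → ℝ) (U : Matrix (Fin N) (Fin N) ℝ)
    (i : Fin N) : ℝ :=
  1 / N * ((∑ σ ∈ cube N, Real.exp (en β lam U σ) * (β / 2 * ((U *ᵥ σ) i) ^ 2)) / Z β lam U)

theorem gr_nonneg {N : ℕ} {β : ℝ} (hβ : 0 ≤ β) (lam : Fin N → ℝ) (U : Matrix (Fin N) (Fin N) ℝ)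
    (i : Fin N) : 0 ≤ gr β lam U i := by
  unfold gr
  have := Z_pos β lam U
  have h : 0 ≤ ∑ σ ∈ cube N, Real.exp (en β lam U σ) * (β / 2 * ((U *ᵥ σ) i) ^ 2) :=
    Finset.sum_nonneg fun σ _ => by positivity
  positivity

theorem gr_sum {N : ℕ} (hN : 0 < N) (β : ℝ) (lam : Fin N → ℝ) {U : Matrix (Fin N) (Fin N) ℝ}
    (hU : U ∈ orthogonalGroup (Fin N) ℝ) : ∑ i, gr β lam U i = β / 2 := by
  unfold gr
  rw [← Finset.mul_sum, ← Finset.sum_div, Finset.sum_comm]
  have h : ∑ σ ∈ cube N, ∑ i, Real.exp (en β lam U σ) * (β / 2 * ((U *ᵥ σ) i) ^ 2) =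
      (β / 2 * N) * Z β lam U := by
    unfold Z
    rw [Finset.mul_sum]
    refine Finset.sum_congr rfl fun σ hσ => ?_
    rw [← Finset.mul_sum, ← Finset.mul_sum, norm_rot hU hσ]
    ring
  rw [h]
  have h1 := (Z_pos β lam U).ne'
  have h2 : (N : ℝ) ≠ 0 := by positivity
  field_simp

/-- Jensen -/
theorem jensen {α : Type*} (C : Finset α) (hC : C.Nonempty) (H H' : α → ℝ) :
    Real.log (∑ x ∈ C, Real.exp (H x)) - Real.log (∑ x ∈ C, Real.exp (H' x)) ≤
      (∑ x ∈ C, Real.exp (H x) * (H x - H' x)) / ∑ x ∈ C, Real.exp (H x) := by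
  have hZ : 0 < ∑ x ∈ C, Real.exp (H x) := Finset.sum_pos (fun _ _ => Real.exp_pos _) hC
  have hZ' : 0 < ∑ x ∈ C, Real.exp (H' x) := Finset.sum_pos (fun _ _ => Real.exp_pos _) hC
  set A := ∑ x ∈ C, Real.exp (H x) with hA
  set B := ∑ x ∈ C, Real.exp (H' x) with hB
  set m := (∑ x ∈ C, Real.exp (H x) * (H x - H' x)) / A with hm
  have h1 : A * Real.exp (-m) ≤ B := by
    have h2 : ∀ x ∈ C, Real.exp (H x) * (Real.exp (-m) * (1 + (H' x - H x) + m)) ≤
        Real.exp (H' x) := by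
      intro x _
      have h3 : (H' x - H x) + m + 1 ≤ Real.exp ((H' x - H x) + m) := Real.add_one_le_exp _
      have h4 : Real.exp (H' x) = Real.exp (H x) * (Real.exp (-m) *
          Real.exp ((H' x - H x) + m)) := by
        rw [← Real.exp_add, ← Real.exp_add]
        congr 1
        ring
      rw [h4]
      have := Real.exp_pos (H x)
      have := Real.exp_pos (-m)
      gcongr
      linarith
    have h5 := Finset.sum_le_sum h2
    refine le_trans (le_of_eq ?_) h5
    have h6 : ∀ x ∈ C, Real.exp (H x) * (Real.exp (-m) * (1 + (H' x - H x) + m)) =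
        Real.exp (-m) * (1 + m) * Real.exp (H x) -
          Real.exp (-m) * (Real.exp (H x) * (H x - H' x)) := fun x _ => by ring
    rw [Finset.sum_congr rfl h6, Finset.sum_sub_distrib, ← Finset.mul_sum, ← Finset.mul_sum, ← hA]
    have h7 : ∑ x ∈ C, Real.exp (H x) * (H x - H' x) = m * A := by
      rw [hm, div_mul_cancel₀ _ hZ.ne']
    rw [h7]
    ring
  have h8 := Real.log_le_log (by positivity) h1
  rw [Real.log_mul hZ.ne' (Real.exp_pos _).ne', Real.log_exp] at h8
  linarith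

/-- the pressure is convex in the eigenvalues: subgradient inequality -/
theorem subgrad {N : ℕ} (β : ℝ) (lam lam' : Fin N → ℝ) (U : Matrix (Fin N) (Fin N) ℝ) :
    pressure β lam U - pressure β lam' U ≤ ∑ i, gr β lam U i * (lam i - lam' i) := by
  have h := jensen (cube N) (cube_nonempty N) (en β lam U) (en β lam' U)
  have h1 : pressure β lam U - pressure β lam' U =
      1 / N * (Real.log (Z β lam U) - Real.log (Z β lam' U)) := by
    rw [pressure_eq, pressure_eq]
    ring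
  rw [h1]
  have h2 : ∑ i, gr β lam U i * (lam i - lam' i) = 1 / N *
      ((∑ σ ∈ cube N, Real.exp (en β lam U σ) * (en β lam U σ - en β lam' U σ)) /
        Z β lam U) := by
    unfold gr
    have h3 : ∀ σ ∈ cube N, Real.exp (en β lam U σ) * (en β lam U σ - en β lam' U σ) =
        ∑ i : Fin N, (Real.exp (en β lam U σ) * (β / 2 * ((U *ᵥ σ) i) ^ 2)) *
          (lam i - lam' i) := by
      intro σ _
      have e : en β lam U σ - en β lam' U σ =
          ∑ i : Fin N, (β / 2 * ((U *ᵥ σ) i) ^ 2) * (lam i - lam' i) := by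
        unfold en
        rw [← mul_sub, ← Finset.sum_sub_distrib, Finset.mul_sum]
        exact Finset.sum_congr rfl fun (i : Fin N) _ => by ring
      rw [e, Finset.mul_sum]
      exact Finset.sum_congr rfl fun (i : Fin N) _ => by ring
    rw [Finset.sum_congr rfl h3, Finset.sum_comm, Finset.sum_div, Finset.mul_sum]
    refine Finset.sum_congr rfl fun i _ => ?_
    rw [← Finset.sum_mul]
    ring
  rw [h2]
  have h4 : (0 : ℝ) ≤ 1 / N := by positivity
  exact mul_le_mul_of_nonneg_left h h4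

theorem abs_pressure_sub {N : ℕ} {β : ℝ} (hβ : 0 ≤ β) (lam lam' : Fin N → ℝ)
    (U : Matrix (Fin N) (Fin N) ℝ) : |pressure β lam U - pressure β lam' U| ≤
      ∑ i, (gr β lam U i + gr β lam' U i) * |lam i - lam' i| := by
  have h1 := subgrad β lam lam' U
  have h2 := subgrad β lam' lam U
  have h3 : ∑ i, gr β lam U i * (lam i - lam' i) ≤
      ∑ i, (gr β lam U i + gr β lam' U i) * |lam i - lam' i| := by
    refine Finset.sum_le_sum fun i _ => ?_
    have a1 := gr_nonneg hβ lam U i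
    have a2 := gr_nonneg hβ lam' U i
    have a3 := le_abs_self (lam i - lam' i)
    have a4 := abs_nonneg (lam i - lam' i)
    nlinarith
  have h4 : ∑ i, gr β lam' U i * (lam' i - lam i) ≤
      ∑ i, (gr β lam U i + gr β lam' U i) * |lam i - lam' i| := by
    refine Finset.sum_le_sum fun i _ => ?_
    have a1 := gr_nonneg hβ lam U i
    have a2 := gr_nonneg hβ lam' U i
    have a3 := neg_le_abs (lam i - lam' i)
    have a4 := abs_nonneg (lam i - lam' i)
    nlinarith
  rw [abs_le]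
  constructor <;> linarith

/-! ### permutations -/

/-- the matrix of a permutation, acting on vectors by `x ↦ x ∘ p` -/
noncomputable def pm {N : ℕ} (p : Equiv.Perm (Fin N)) : Matrix (Fin N) (Fin N) ℝ :=
  Matrix.of fun i j => if p i = j then 1 else 0

theorem pm_mulVec {N : ℕ} (p : Equiv.Perm (Fin N)) (x : Fin N → ℝ) (i : Fin N) :
    (pm p *ᵥ x) i = x (p i) := by
  simp [pm, mulVec, dotProduct]

theorem pm_mem {N : ℕ} (p : Equiv.Perm (Fin N)) : pm p ∈ orthogonalGroup (Fin N) ℝ := by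
  rw [mem_orthogonalGroup_iff]
  ext i j
  rw [mul_apply]
  simp only [pm, transpose_apply, of_apply, ite_mul, one_mul, zero_mul,
    Finset.sum_ite_eq, Finset.mem_univ, if_true]
  by_cases h : i = j
  · subst h; simp
  · rw [one_apply_ne h, if_neg]
    exact fun e => h (p.injective e.symm)

theorem en_perm {N : ℕ} (β : ℝ) (lam : Fin N → ℝ) (p : Equiv.Perm (Fin N))
    (U : Matrix (Fin N) (Fin N) ℝ) (σ : Fin N → ℝ) :
    en β (lam ∘ p) (pm p * U) σ = en β lam U σ := by
  unfold en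
  congr 1
  rw [← Equiv.sum_comp p (fun i => lam i * ((U *ᵥ σ) i) ^ 2)]
  refine Finset.sum_congr rfl fun i _ => ?_
  rw [← mulVec_mulVec, pm_mulVec]
  rfl

theorem pressure_perm {N : ℕ} (β : ℝ) (lam : Fin N → ℝ) (p : Equiv.Perm (Fin N))
    (U : Matrix (Fin N) (Fin N) ℝ) :
    pressure β (lam ∘ p) (pm p * U) = pressure β lam U := by
  rw [pressure_eq, pressure_eq]
  unfold Z
  simp only [en_perm]

theorem gr_perm {N : ℕ} (β : ℝ) (lam : Fin N → ℝ) (p : Equiv.Perm (Fin N))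
    (U : Matrix (Fin N) (Fin N) ℝ) (i : Fin N) :
    gr β (lam ∘ p) (pm p * U) i = gr β lam U (p i) := by
  unfold gr Z
  simp only [en_perm, ← mulVec_mulVec, pm_mulVec]

end Vale.Agent.P166U
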