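import Vale.Agent.Lib.P166U.A

/-!
# P166: universality of the pressure in the eigenvalues, averages over the orthogonal group
-/

namespace Vale.Agent.P166U

open MeasureTheory Matrix

theorem continuous_en {N : ℕ} (β : ℝ) (lam : Fin N → ℝ) (σ : Fin N → ℝ) :
    Continuous fun U : Matrix (Fin N) (Fin N) ℝ => en β lam U σ := by
  unfold en
  fun_prop

theorem continuous_Z {N : ℕ} (β : ℝ) (lam : Fin N → ℝ) :
    Continuous fun U : Matrix (Fin N) (Fin N) ℝ => Z β lam U := by
  unfold Z
  exact continuous_finsetSum _ fun σ _ => (continuous_en β lam σ).rexp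

theorem continuous_pressure {N : ℕ} (β : ℝ) (lam : Fin N → ℝ) :
    Continuous fun U : Matrix (Fin N) (Fin N) ℝ => pressure β lam U := by
  simp only [pressure_eq]
  exact continuous_const.mul (continuous_const.add
    ((continuous_Z β lam).log fun U => (Z_pos β lam U).ne'))

theorem continuous_gr {N : ℕ} (β : ℝ) (lam : Fin N → ℝ) (i : Fin N) :
    Continuous fun U : Matrix (Fin N) (Fin N) ℝ => gr β lam U i := by
  unfold gr
  refine continuous_const.mul (Continuous.div ?_ (continuous_Z β lam) fun U => (Z_pos β lam U).ne')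
  refine continuous_finsetSum _ fun σ _ => (continuous_en β lam σ).rexp.mul ?_
  fun_prop

theorem gr_le {N : ℕ} {β : ℝ} (hβ : 0 ≤ β) (lam : Fin N → ℝ) {U : Matrix (Fin N) (Fin N) ℝ}
    (hU : U ∈ orthogonalGroup (Fin N) ℝ) (i : Fin N) : gr β lam U i ≤ β / 2 := by
  have hN : 0 < N := i.pos
  rw [← gr_sum hN β lam hU]
  exact Finset.single_le_sum (fun j _ => gr_nonneg hβ lam U j) (Finset.mem_univ i)

theorem pressure_zero {N : ℕ} (β : ℝ) (U U' : Matrix (Fin N) (Fin N) ℝ) :
    pressure β (fun _ => 0) U = pressure β (fun _ => 0) U' := by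
  rw [pressure_eq, pressure_eq]
  unfold Z en
  simp

theorem pressure_bdd {N : ℕ} {β : ℝ} (hβ : 0 ≤ β) (lam : Fin N → ℝ) :
    ∃ C : ℝ, ∀ U ∈ orthogonalGroup (Fin N) ℝ, |pressure β lam U| ≤ C := by
  refine ⟨∑ i, (β / 2 + β / 2) * |lam i - 0| + |pressure β (fun _ : Fin N => (0 : ℝ)) 1|,
    fun U hU => ?_⟩
  have h1 := abs_pressure_sub hβ lam (fun _ => 0) U
  have h2 : ∑ i, (gr β lam U i + gr β (fun _ => 0) U i) * |lam i - 0| ≤
      ∑ i, (β / 2 + β / 2) * |lam i - 0| := by
    refine Finset.sum_le_sum fun i _ => ?_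
    have := gr_le hβ lam hU i
    have := gr_le hβ (fun _ => 0) hU i
    gcongr
  have h3 := pressure_zero β U 1
  have h4 := abs_add_le (pressure β lam U - pressure β (fun _ => 0) U) (pressure β (fun _ => 0) U)
  rw [sub_add_cancel] at h4
  rw [h3] at h1 h4
  linarith

set_option linter.unusedSectionVars false

variable {N : ℕ} [MeasurableSpace (orthogonalGroup (Fin N) ℝ)]
  [BorelSpace (orthogonalGroup (Fin N) ℝ)] (ν : Measure (orthogonalGroup (Fin N) ℝ))
  [IsProbabilityMeasure ν]

theorem integrable_of {F : Matrix (Fin N) (Fin N) ℝ → ℝ} (hF : Continuous F) {C : ℝ}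
    (hC : ∀ U ∈ orthogonalGroup (Fin N) ℝ, |F U| ≤ C) :
    Integrable (fun U : orthogonalGroup (Fin N) ℝ => F U) ν := by
  refine Integrable.of_bound (hF.comp continuous_subtype_val).aestronglyMeasurable C ?_
  filter_upwards with U
  exact hC U U.2

theorem integrable_gr {β : ℝ} (hβ : 0 ≤ β) (lam : Fin N → ℝ) (i : Fin N) :
    Integrable (fun U : orthogonalGroup (Fin N) ℝ => gr β lam U i) ν :=
  integrable_of ν (F := fun U => gr β lam U i) (continuous_gr β lam i) (C := β / 2) fun U hU => by
    rw [abs_of_nonneg (gr_nonneg hβ lam U i)]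
    exact gr_le hβ lam hU i

theorem integrable_pressure {β : ℝ} (hβ : 0 ≤ β) (lam : Fin N → ℝ) :
    Integrable (fun U : orthogonalGroup (Fin N) ℝ => pressure β lam U) ν := by
  obtain ⟨C, hC⟩ := pressure_bdd hβ lam
  exact integrable_of ν (F := fun U => pressure β lam U) (continuous_pressure β lam) hC

theorem integrable_comp {β : ℝ} (hβ : 0 ≤ β) (lam : Fin N → ℝ) {φ : ℝ → ℝ}
    (hφ : LipschitzWith 1 φ) :
    Integrable (fun U : orthogonalGroup (Fin N) ℝ => φ (pressure β lam U)) ν := by
  obtain ⟨C, hC⟩ := pressure_bdd hβ lam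
  refine integrable_of ν (F := fun U => φ (pressure β lam U))
    (hφ.continuous.comp (continuous_pressure β lam)) (C := C + |φ 0|) fun U hU => ?_
  have h1 := hφ.dist_le_mul (pressure β lam U) 0
  rw [Real.dist_eq, Real.dist_eq, sub_zero, NNReal.coe_one, one_mul] at h1
  have h2 := hC U hU
  have h4 := abs_add_le (φ (pressure β lam U) - φ 0) (φ 0)
  rw [sub_add_cancel] at h4
  linarith

/-- averaged gradient -/
noncomputable def av (β : ℝ) (lam : Fin N → ℝ) (i : Fin N) : ℝ :=
  ∫ U : orthogonalGroup (Fin N) ℝ, gr β lam U i ∂ν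

theorem av_nonneg {β : ℝ} (hβ : 0 ≤ β) (lam : Fin N → ℝ) (i : Fin N) : 0 ≤ av ν β lam i :=
  integral_nonneg fun U => gr_nonneg hβ lam U i

theorem av_sum (hN : 0 < N) {β : ℝ} (hβ : 0 ≤ β) (lam : Fin N → ℝ) :
    ∑ i, av ν β lam i = β / 2 := by
  unfold av
  rw [← integral_finsetSum _ fun i _ => integrable_gr ν hβ lam i]
  rw [integral_congr_ae (g := fun _ => β / 2)]
  · simp
  · filter_upwards with U
    exact gr_sum hN β lam U.2

variable [ν.IsMulLeftInvariant]

theorem av_perm (β : ℝ) (lam : Fin N → ℝ) (p : Equiv.Perm (Fin N)) (i : Fin N) :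
    av ν β (lam ∘ p) i = av ν β lam (p i) := by
  unfold av
  rw [← integral_mul_left_eq_self (fun U : orthogonalGroup (Fin N) ℝ => gr β (lam ∘ p) U i)
    (⟨pm p, pm_mem p⟩ : orthogonalGroup (Fin N) ℝ)]
  refine integral_congr_ae ?_
  filter_upwards with U
  exact gr_perm β lam p U i

theorem int_perm (β : ℝ) (lam : Fin N → ℝ) (p : Equiv.Perm (Fin N)) (φ : ℝ → ℝ) :
    ∫ U : orthogonalGroup (Fin N) ℝ, φ (pressure β (lam ∘ p) U) ∂ν =
      ∫ U : orthogonalGroup (Fin N) ℝ, φ (pressure β lam U) ∂ν := by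
  rw [← integral_mul_left_eq_self
    (fun U : orthogonalGroup (Fin N) ℝ => φ (pressure β (lam ∘ p) U))
    (⟨pm p, pm_mem p⟩ : orthogonalGroup (Fin N) ℝ)]
  refine integral_congr_ae ?_
  filter_upwards with U
  exact congrArg φ (pressure_perm β lam p U)

theorem av_subgrad {β : ℝ} (hβ : 0 ≤ β) (lam lam' : Fin N → ℝ) :
    ∫ U : orthogonalGroup (Fin N) ℝ, pressure β lam U ∂ν -
      ∫ U : orthogonalGroup (Fin N) ℝ, pressure β lam' U ∂ν ≤
      ∑ i, av ν β lam i * (lam i - lam' i) := by
  rw [← integral_sub (integrable_pressure ν hβ lam) (integrable_pressure ν hβ lam')]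
  unfold av
  simp only [← integral_mul_const]
  rw [← integral_finsetSum _ fun i _ => (integrable_gr ν hβ lam i).mul_const _]
  refine integral_mono ((integrable_pressure ν hβ lam).sub (integrable_pressure ν hβ lam'))
    (integrable_finsetSum _ fun i _ => (integrable_gr ν hβ lam i).mul_const _) fun U => ?_
  exact subgrad β lam lam' U

/-- larger eigenvalues have larger averaged derivative -/
theorem av_anti {β : ℝ} (hβ : 0 ≤ β) {lam : Fin N → ℝ} (h : Antitone lam) :
    Antitone (av ν β lam) := by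
  intro i j hij
  rcases eq_or_lt_of_le (h hij) with h1 | h1
  · have h2 : lam ∘ Equiv.swap i j = lam := by
      funext k
      simp only [Function.comp_apply, Equiv.swap_apply_def]
      split_ifs with h3 h4
      · rw [h3, h1]
      · rw [h4, h1]
      · rfl
    have h3 := av_perm ν β lam (Equiv.swap i j) i
    rw [h2, Equiv.swap_apply_left] at h3
    exact h3.symm.le
  · have h2 := av_subgrad ν hβ lam (lam ∘ Equiv.swap i j)
    have h3 := int_perm ν β lam (Equiv.swap i j) id
    simp only [id] at h3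
    rw [h3, sub_self] at h2
    have hne : i ≠ j := by
      rintro rfl
      exact lt_irrefl _ h1
    have h4 : ∑ k, av ν β lam k * (lam k - (lam ∘ Equiv.swap i j) k) =
        av ν β lam i * (lam i - lam j) + av ν β lam j * (lam j - lam i) := by
      rw [← Finset.sum_subset (Finset.subset_univ ({i, j} : Finset (Fin N)))]
      · rw [Finset.sum_pair hne]
        simp
      · intro k _ hk
        rw [Finset.mem_insert, Finset.mem_singleton, not_or] at hk
        simp [Equiv.swap_apply_of_ne_of_ne hk.1 hk.2]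
    rw [h4] at h2
    nlinarith

theorem av_le {β : ℝ} (hβ : 0 ≤ β) {lam : Fin N → ℝ} (h : Antitone lam) (i : Fin N) :
    ((i : ℕ) + 1 : ℝ) * av ν β lam i ≤ β / 2 := by
  have h1 : ((i : ℕ) + 1 : ℝ) * av ν β lam i = ∑ j ∈ Finset.Iic i, av ν β lam i := by
    rw [Finset.sum_const, Fin.card_Iic, nsmul_eq_mul]
    push_cast
    rfl
  rw [h1, ← av_sum ν i.pos hβ lam]
  calc ∑ j ∈ Finset.Iic i, av ν β lam i ≤ ∑ j ∈ Finset.Iic i, av ν β lam j :=
        Finset.sum_le_sum fun j hj => av_anti ν hβ h (Finset.mem_Iic.1 hj)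
    _ ≤ ∑ j, av ν β lam j :=
        Finset.sum_le_sum_of_subset_of_nonneg (Finset.subset_univ _) fun j _ _ =>
          av_nonneg ν hβ lam j

/-- comparison of two sorted sequences of eigenvalues -/
theorem l1 {β : ℝ} (hβ : 0 ≤ β) (lam lam' : Fin N → ℝ) :
    ∫ U : orthogonalGroup (Fin N) ℝ, |pressure β lam U - pressure β lam' U| ∂ν ≤
      ∑ i, (av ν β lam i + av ν β lam' i) * |lam i - lam' i| := by
  have hi : ∀ i ∈ (Finset.univ : Finset (Fin N)), Integrable (fun U : orthogonalGroup (Fin N) ℝ =>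
      (gr β lam U i + gr β lam' U i) * |lam i - lam' i|) ν := fun i _ =>
    ((integrable_gr ν hβ lam i).add (integrable_gr ν hβ lam' i)).mul_const _
  have h1 : ∑ i, (av ν β lam i + av ν β lam' i) * |lam i - lam' i| =
      ∫ U : orthogonalGroup (Fin N) ℝ,
        ∑ i, (gr β lam U i + gr β lam' U i) * |lam i - lam' i| ∂ν := by
    rw [integral_finsetSum _ hi]
    refine Finset.sum_congr rfl fun i _ => ?_
    rw [integral_mul_const, integral_add (integrable_gr ν hβ lam i) (integrable_gr ν hβ lam' i)]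
    rfl
  rw [h1]
  refine integral_mono (((integrable_pressure ν hβ lam).sub (integrable_pressure ν hβ lam')).abs)
    (integrable_finsetSum _ hi) fun U => ?_
  exact abs_pressure_sub hβ lam lam' U

/-- the bound used for the limit -/
theorem l1_bound {β : ℝ} (hβ : 0 ≤ β) {lam lam' : Fin N → ℝ} (h : Antitone lam)
    (h' : Antitone lam') {δ η : ℝ} (hδ : 0 ≤ δ) (hη : 0 < η)
    (htop : ∀ i : Fin N, ((i : ℕ) + 1 : ℝ) ≤ η * N → |lam i - lam' i| ≤ δ) :
    ∫ U : orthogonalGroup (Fin N) ℝ, |pressure β lam U - pressure β lam' U| ∂ν ≤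
      β * δ + β / η * (1 / N * ∑ i, |lam i - lam' i|) := by
  rcases Nat.eq_zero_or_pos N with hN | hN
  · subst hN
    have := l1 ν hβ lam lam'
    simp only [Finset.univ_eq_empty, Finset.sum_empty] at this
    simp only [Finset.univ_eq_empty, Finset.sum_empty, mul_zero, add_zero]
    exact le_trans this (by positivity)
  refine (l1 ν hβ lam lam').trans ?_
  have hN' : (0 : ℝ) < N := by positivity
  have key : ∀ i : Fin N, (av ν β lam i + av ν β lam' i) * |lam i - lam' i| ≤
      (av ν β lam i + av ν β lam' i) * δ + β / η * (1 / N) * |lam i - lam' i| := by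
    intro i
    have a1 := av_nonneg ν hβ lam i
    have a2 := av_nonneg ν hβ lam' i
    have a0 := abs_nonneg (lam i - lam' i)
    by_cases hi : ((i : ℕ) + 1 : ℝ) ≤ η * N
    · have h1 := htop i hi
      have h2 : 0 ≤ β / η * (1 / N) * |lam i - lam' i| := by positivity
      have h3 : (av ν β lam i + av ν β lam' i) * |lam i - lam' i| ≤
          (av ν β lam i + av ν β lam' i) * δ := by gcongr
      linarith
    · push Not at hi
      have b1 := av_le ν hβ h i
      have b2 := av_le ν hβ h' i
      have h3 : av ν β lam i + av ν β lam' i ≤ β / η * (1 / N) := by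
        rw [div_mul_div_comm, mul_one, le_div_iff₀ (by positivity)]
        calc (av ν β lam i + av ν β lam' i) * (η * N) ≤
            (av ν β lam i + av ν β lam' i) * ((i : ℕ) + 1 : ℝ) := by gcongr
          _ ≤ β := by linarith
      have h4 : 0 ≤ (av ν β lam i + av ν β lam' i) * δ := by positivity
      have h5 : (av ν β lam i + av ν β lam' i) * |lam i - lam' i| ≤
          β / η * (1 / N) * |lam i - lam' i| := by gcongr
      linarith
  refine (Finset.sum_le_sum fun i _ => key i).trans (le_of_eq ?_)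
  rw [Finset.sum_add_distrib, ← Finset.sum_mul, ← Finset.mul_sum, Finset.sum_add_distrib,
    av_sum ν hN hβ, av_sum ν hN hβ]
  ring

end Vale.Agent.P166U
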