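import Mathlib

/-!
# P166: sorted sequences with the same limit of empirical measures
-/

namespace Vale.Agent.P166U

open MeasureTheory Filter Topology

/-- the assumptions on the eigenvalues: the empirical measures converge weakly to `μ`, the largest
and the smallest eigenvalue converge to the edges of the support of `μ` -/
structure Spectra (μ : Measure ℝ) (lam : ∀ N : ℕ, Fin N → ℝ) : Prop where
  weak : ∀ g : ℝ → ℝ, Continuous g → (∃ C, ∀ x, |g x| ≤ C) →
    Tendsto (fun N : ℕ => 1 / (N : ℝ) * ∑ i, g (lam N i)) atTop (𝓝 (∫ x, g x ∂μ))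
  top : Tendsto (fun N : ℕ => ⨆ i, lam N i) atTop (𝓝 (sSup μ.support))
  bot : Tendsto (fun N : ℕ => ⨅ i, lam N i) atTop (𝓝 (sInf μ.support))

theorem Spectra.comp {μ : Measure ℝ} {lam : ∀ N : ℕ, Fin N → ℝ} (h : Spectra μ lam)
    (p : ∀ N : ℕ, Equiv.Perm (Fin N)) : Spectra μ (fun N => lam N ∘ p N) := by
  refine ⟨fun g hg hb => ?_, ?_, ?_⟩
  · refine (h.weak g hg hb).congr fun N => ?_
    rw [← Equiv.sum_comp (p N) (fun i => g (lam N i))]
    rfl
  · refine h.top.congr fun N => ?_
    exact ((p N).surjective.iSup_comp (lam N)).symm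
  · refine h.bot.congr fun N => ?_
    exact ((p N).surjective.iInf_comp (lam N)).symm

theorem exists_sort {N : ℕ} (lam : Fin N → ℝ) : ∃ p : Equiv.Perm (Fin N), Antitone (lam ∘ p) := by
  refine ⟨Fin.revPerm.trans (Tuple.sort lam), fun i j hij => ?_⟩
  exact Tuple.monotone_sort lam (Fin.rev_le_rev.2 hij)

/-- cutoff function -/
noncomputable def ct (t h x : ℝ) : ℝ := max 0 (min 1 ((x - t) / h))

theorem ct_cont (t h : ℝ) : Continuous (ct t h) := by
  unfold ct
  fun_prop

theorem ct_nonneg (t h x : ℝ) : 0 ≤ ct t h x := le_max_left _ _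

theorem ct_le_one (t h x : ℝ) : ct t h x ≤ 1 := max_le zero_le_one (min_le_left _ _)

theorem ct_bdd (t h : ℝ) : ∃ C, ∀ x, |ct t h x| ≤ C :=
  ⟨1, fun x => by rw [abs_of_nonneg (ct_nonneg t h x)]; exact ct_le_one t h x⟩

theorem ct_eq_zero {t h x : ℝ} (hh : 0 < h) (hx : x ≤ t) : ct t h x = 0 := by
  unfold ct
  apply max_eq_left
  refine (min_le_right _ _).trans ?_
  exact div_nonpos_of_nonpos_of_nonneg (by linarith) hh.le

theorem ct_eq_one {t h x : ℝ} (hh : 0 < h) (hx : t + h ≤ x) : ct t h x = 1 := by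
  unfold ct
  have : 1 ≤ (x - t) / h := by
    rw [le_div_iff₀ hh]
    linarith
  rw [min_eq_left this]
  exact max_eq_right zero_le_one

theorem ct_pos {t h x : ℝ} (hh : 0 < h) (hx : t < x) : 0 < ct t h x := by
  unfold ct
  have : 0 < (x - t) / h := div_pos (by linarith) hh
  exact lt_max_of_lt_right (lt_min one_pos this)

theorem ct_anti {s t h x : ℝ} (hh : 0 < h) (hst : s ≤ t) : ct t h x ≤ ct s h x := by
  unfold ct
  gcongr

/-- counting grid points -/
theorem grid {a b L h : ℝ} {m : ℕ} (hh : 0 < h) (hb : L ≤ b) (ha : a ≤ L + m * h) :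
    max (a - b) 0 ≤ h * (1 + ((Finset.range (m + 1)).filter
      (fun j : ℕ => b ≤ L + j * h ∧ L + j * h < a)).card) := by
  refine max_le ?_ (by positivity)
  set j0 := ⌈(b - L) / h⌉₊ with hj0
  set j1 := ⌈(a - L) / h⌉₊ with hj1
  have h1 : Finset.Ico j0 j1 ⊆ (Finset.range (m + 1)).filter
      (fun j : ℕ => b ≤ L + j * h ∧ L + j * h < a) := by
    intro j hj
    rw [Finset.mem_Ico, hj0, hj1, Nat.ceil_le, Nat.lt_ceil, div_le_iff₀ hh, lt_div_iff₀ hh] at hj
    rw [Finset.mem_filter, Finset.mem_range]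
    refine ⟨?_, by linarith, by linarith⟩
    have : (j : ℝ) * h < m * h := by linarith
    have h2 : (j : ℝ) < m := lt_of_mul_lt_mul_right this hh.le
    have : j < m := by exact_mod_cast h2
    omega
  have h2 := Finset.card_le_card h1
  rw [Nat.card_Ico] at h2
  have h3 : (j1 : ℝ) - j0 ≤ ((Finset.range (m + 1)).filter
      (fun j : ℕ => b ≤ L + j * h ∧ L + j * h < a)).card := by
    have : (j1 : ℝ) ≤ ((Finset.range (m + 1)).filter
      (fun j : ℕ => b ≤ L + j * h ∧ L + j * h < a)).card + j0 := by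
      exact_mod_cast Nat.sub_le_iff_le_add.1 h2
    linarith
  have h4 : (a - L) / h ≤ j1 := Nat.le_ceil _
  have h5 : (j0 : ℝ) < (b - L) / h + 1 :=
    Nat.ceil_lt_add_one (div_nonneg (by linarith) hh.le)
  have h6 : (a - b) / h = (a - L) / h - (b - L) / h := by
    rw [← sub_div]
    congr 1
    ring
  have h7 : (a - b) / h ≤ 1 + ((Finset.range (m + 1)).filter
      (fun j : ℕ => b ≤ L + j * h ∧ L + j * h < a)).card := by
    rw [h6]
    linarith
  rw [div_le_iff₀ hh] at h7
  linarith

theorem cross {N : ℕ} {a b : Fin N → ℝ} (ha : Antitone a) (hb : Antitone b) {h : ℝ} (hh : 0 < h)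
    (t : ℝ) : ((Finset.univ.filter (fun i : Fin N => b i ≤ t ∧ t < a i)).card : ℝ) ≤
      max 0 (∑ i, ct (t - h) h (a i) - ∑ i, ct t h (b i)) := by
  classical
  set S := Finset.univ.filter (fun i : Fin N => t < a i) with hS
  set S' := Finset.univ.filter (fun i : Fin N => t < b i) with hS'
  have h1 : Finset.univ.filter (fun i : Fin N => b i ≤ t ∧ t < a i) = S \ S' := by
    ext i
    simp only [hS, hS', Finset.mem_filter, Finset.mem_univ, true_and, Finset.mem_sdiff, not_lt]
    tauto
  rw [h1]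
  by_cases h2 : S ⊆ S'
  · rw [Finset.sdiff_eq_empty_iff_subset.2 h2]
    simp
  · refine le_max_of_le_right ?_
    obtain ⟨i, hi, hi'⟩ := Finset.not_subset.1 h2
    have h3 : S' ⊆ S := by
      intro j hj
      simp only [hS, hS', Finset.mem_filter, Finset.mem_univ, true_and, not_lt] at hi hi' hj ⊢
      have : j ≤ i := by
        by_contra hji
        push Not at hji
        have := hb hji.le
        linarith
      exact lt_of_lt_of_le hi (ha this)
    have h4 := Finset.card_sdiff_add_card_eq_card h3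
    have h5 : (S.card : ℝ) ≤ ∑ i, ct (t - h) h (a i) := by
      have : (S.card : ℝ) = ∑ i ∈ S, (1 : ℝ) := by simp
      rw [this]
      calc ∑ i ∈ S, (1 : ℝ) = ∑ i ∈ S, ct (t - h) h (a i) := by
            refine Finset.sum_congr rfl fun i hi => ?_
            rw [ct_eq_one hh]
            have := (Finset.mem_filter.1 hi).2
            linarith
        _ ≤ ∑ i, ct (t - h) h (a i) :=
            Finset.sum_le_sum_of_subset_of_nonneg (Finset.subset_univ _) fun i _ _ => ct_nonneg _ _ _
    have h6 : ∑ i, ct t h (b i) ≤ S'.card := by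
      have : (S'.card : ℝ) = ∑ i ∈ S', (1 : ℝ) := by simp
      rw [this, ← Finset.sum_subset (Finset.subset_univ S')]
      · exact Finset.sum_le_sum fun i _ => ct_le_one _ _ _
      · intro i _ hi
        rw [ct_eq_zero hh]
        simpa [hS'] using hi
    have h7 : ((S \ S').card : ℝ) + S'.card = S.card := by exact_mod_cast h4
    linarith

theorem w_bound {N : ℕ} {a b : Fin N → ℝ} (ha : Antitone a) (hb : Antitone b) {L h : ℝ} {m : ℕ}
    (hh : 0 < h) (hL : ∀ i, L ≤ b i) (hR : ∀ i, a i ≤ L + m * h) :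
    1 / (N : ℝ) * ∑ i, max (a i - b i) 0 ≤ h * (1 + ∑ j ∈ Finset.range (m + 1),
      max 0 (1 / (N : ℝ) * ∑ i, ct (L + j * h - h) h (a i) -
        1 / (N : ℝ) * ∑ i, ct (L + j * h) h (b i))) := by
  have h1 : ∑ i, max (a i - b i) 0 ≤ h * (N + ∑ j ∈ Finset.range (m + 1),
      max 0 (∑ i, ct (L + j * h - h) h (a i) - ∑ i, ct (L + j * h) h (b i))) := by
    calc ∑ i, max (a i - b i) 0 ≤ ∑ i, h * (1 + ((Finset.range (m + 1)).filter
          (fun j : ℕ => b i ≤ L + j * h ∧ L + j * h < a i)).card) :=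
          Finset.sum_le_sum fun i _ => grid hh (hL i) (hR i)
      _ = h * (N + ∑ j ∈ Finset.range (m + 1),
          ((Finset.univ.filter (fun i : Fin N => b i ≤ L + j * h ∧ L + j * h < a i)).card : ℝ)) := by
          rw [← Finset.mul_sum, Finset.sum_add_distrib]
          congr 2
          · simp
          · simp only [Finset.card_filter]
            push_cast
            rw [Finset.sum_comm]
      _ ≤ _ := by
          gcongr with j hj
          exact cross ha hb hh _
  rcases Nat.eq_zero_or_pos N with hN | hN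
  · subst hN
    simp only [CharP.cast_eq_zero, div_zero, zero_mul]
    positivity
  · have hN' : (0 : ℝ) < N := by positivity
    have h2 : h * (1 + ∑ j ∈ Finset.range (m + 1),
      max 0 (1 / (N : ℝ) * ∑ i, ct (L + j * h - h) h (a i) -
        1 / (N : ℝ) * ∑ i, ct (L + j * h) h (b i))) = 1 / N * (h * (N + ∑ j ∈ Finset.range (m + 1),
      max 0 (∑ i, ct (L + j * h - h) h (a i) - ∑ i, ct (L + j * h) h (b i)))) := by
      have h3 : ∀ j ∈ Finset.range (m + 1), max 0 (1 / (N : ℝ) * ∑ i, ct (L + j * h - h) h (a i) -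
        1 / (N : ℝ) * ∑ i, ct (L + j * h) h (b i)) = 1 / N *
          max 0 (∑ i, ct (L + j * h - h) h (a i) - ∑ i, ct (L + j * h) h (b i)) := by
        intro j _
        rw [mul_max_of_nonneg _ _ (by positivity), mul_zero, mul_sub]
      rw [Finset.sum_congr rfl h3, ← Finset.mul_sum]
      field_simp
    rw [h2]
    exact mul_le_mul_of_nonneg_left h1 (by positivity)

end Vale.Agent.P166U
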