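import Vale.Agent.Lib.P166U.B
import Vale.Agent.Lib.P166U.C

/-!
# P166: universality of the pressure in the eigenvalues, the limit
-/

namespace Vale.Agent.P166U

open MeasureTheory Filter Topology Matrix

theorem ev_le {μ : Measure ℝ} {a : ∀ N : ℕ, Fin N → ℝ} (h : Spectra μ a) {c : ℝ}
    (hc : sSup μ.support < c) : ∀ᶠ N in atTop, ∀ i, a N i ≤ c := by
  filter_upwards [h.top.eventually (gt_mem_nhds hc)] with N hN i
  exact (le_ciSup (Set.finite_range (a N)).bddAbove i).trans hN.le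

theorem ev_ge {μ : Measure ℝ} {a : ∀ N : ℕ, Fin N → ℝ} (h : Spectra μ a) {c : ℝ}
    (hc : c < sInf μ.support) : ∀ᶠ N in atTop, ∀ i, c ≤ a N i := by
  filter_upwards [h.bot.eventually (lt_mem_nhds hc)] with N hN i
  exact hN.le.trans (ciInf_le (Set.finite_range (a N)).bddBelow i)

theorem ct_int (μ : Measure ℝ) [IsProbabilityMeasure μ] (t h : ℝ) : Integrable (ct t h) μ := by
  refine Integrable.of_bound (ct_cont t h).aestronglyMeasurable 1 ?_
  filter_upwards with x
  rw [Real.norm_eq_abs, abs_of_nonneg (ct_nonneg t h x)]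
  exact ct_le_one t h x

theorem w_half {μ : Measure ℝ} [IsProbabilityMeasure μ] {a b : ∀ N : ℕ, Fin N → ℝ}
    (ha : Spectra μ a) (hb : Spectra μ b) (ha' : ∀ N, Antitone (a N)) (hb' : ∀ N, Antitone (b N))
    {h : ℝ} (hh : 0 < h) :
    ∀ᶠ N : ℕ in atTop, 1 / (N : ℝ) * ∑ i, max (a N i - b N i) 0 ≤ 3 * h := by
  set L := sInf μ.support - 1 with hL
  set m := ⌈(sSup μ.support + 1 - L) / h⌉₊ with hm
  have hm' : sSup μ.support < L + m * h := by
    have h1 : (sSup μ.support + 1 - L) / h ≤ m := Nat.le_ceil _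
    rw [div_le_iff₀ hh] at h1
    linarith
  have e1 := ev_le ha hm'
  have e2 := ev_ge hb (c := L) (by rw [hL]; linarith)
  have e3 : Tendsto (fun N : ℕ => h * (1 + ∑ j ∈ Finset.range (m + 1),
      max 0 (1 / (N : ℝ) * ∑ i, ct (L + j * h - h) h (a N i) -
        1 / (N : ℝ) * ∑ i, ct (L + j * h) h (b N i)))) atTop
      (𝓝 (h * (1 + ∑ j ∈ Finset.range (m + 1),
      max 0 (∫ x, ct (L + j * h - h) h x ∂μ - ∫ x, ct (L + j * h) h x ∂μ)))) := by
    refine (tendsto_const_nhds.add (tendsto_finsetSum _ fun j _ => ?_)).const_mul h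
    exact tendsto_const_nhds.max ((ha.weak _ (ct_cont _ _) (ct_bdd _ _)).sub
      (hb.weak _ (ct_cont _ _) (ct_bdd _ _)))
  have e4 : h * (1 + ∑ j ∈ Finset.range (m + 1),
      max 0 (∫ x, ct (L + j * h - h) h x ∂μ - ∫ x, ct (L + j * h) h x ∂μ)) < 3 * h := by
    set G : ℕ → ℝ := fun j => ∫ x, ct (L + j * h - h) h x ∂μ with hG
    have h1 : ∀ j ∈ Finset.range (m + 1),
        max 0 (∫ x, ct (L + j * h - h) h x ∂μ - ∫ x, ct (L + j * h) h x ∂μ) = G j - G (j + 1) := by
      intro j _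
      have h2 : G (j + 1) = ∫ x, ct (L + j * h) h x ∂μ := by
        rw [hG]
        simp only
        congr 1
        push_cast
        have : L + ((j : ℝ) + 1) * h - h = L + j * h := by ring
        rw [this]
      rw [h2]
      refine max_eq_right (sub_nonneg.2 ?_)
      exact integral_mono (ct_int μ _ _) (ct_int μ _ _) fun x => ct_anti hh (by linarith)
    rw [Finset.sum_congr rfl h1, Finset.sum_range_sub']
    have h3 : G 0 ≤ 1 := by
      calc G 0 ≤ ∫ _x : ℝ, (1 : ℝ) ∂μ :=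
            integral_mono (ct_int μ _ _) (integrable_const _) fun x => ct_le_one _ _ _
        _ = 1 := by simp
    have h4 : 0 ≤ G (m + 1) := integral_nonneg fun x => ct_nonneg _ _ _
    nlinarith
  filter_upwards [e1, e2, e3.eventually (gt_mem_nhds e4)] with N n1 n2 n3
  exact (w_bound (ha' N) (hb' N) hh n2 n1).trans n3.le

theorem w_lim {μ : Measure ℝ} [IsProbabilityMeasure μ] {a b : ∀ N : ℕ, Fin N → ℝ}
    (ha : Spectra μ a) (hb : Spectra μ b) (ha' : ∀ N, Antitone (a N)) (hb' : ∀ N, Antitone (b N)) :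
    Tendsto (fun N : ℕ => 1 / (N : ℝ) * ∑ i, |a N i - b N i|) atTop (𝓝 0) := by
  rw [Metric.tendsto_nhds]
  intro ε hε
  filter_upwards [w_half ha hb ha' hb' (h := ε / 7) (by positivity),
    w_half hb ha hb' ha' (h := ε / 7) (by positivity)] with N n1 n2
  have h1 : 0 ≤ 1 / (N : ℝ) * ∑ i, |a N i - b N i| := by positivity
  rw [Real.dist_eq, sub_zero, abs_of_nonneg h1]
  have h2 : 1 / (N : ℝ) * ∑ i, |a N i - b N i| = 1 / (N : ℝ) * ∑ i, max (a N i - b N i) 0 +
      1 / (N : ℝ) * ∑ i, max (b N i - a N i) 0 := by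
    rw [← mul_add, ← Finset.sum_add_distrib]
    congr 1
    refine Finset.sum_congr rfl fun i _ => ?_
    rcases le_total (a N i) (b N i) with h | h
    · rw [max_eq_right (by linarith), max_eq_left (by linarith), abs_of_nonpos (by linarith)]
      ring
    · rw [max_eq_left (by linarith), max_eq_right (by linarith), abs_of_nonneg (by linarith)]
      ring
  rw [h2]
  linarith

theorem top_lim {μ : Measure ℝ} [IsProbabilityMeasure μ] {a : ∀ N : ℕ, Fin N → ℝ}
    (ha : Spectra μ a) (ha' : ∀ N, Antitone (a N)) {δ : ℝ} (hδ : 0 < δ) :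
    ∃ η : ℝ, 0 < η ∧ ∀ᶠ N : ℕ in atTop, ∀ i : Fin N, ((i : ℕ) + 1 : ℝ) ≤ η * N →
      sSup μ.support - δ < a N i := by
  set c := sSup μ.support - δ with hc
  have hpos : 0 < ∫ x, ct c 1 x ∂μ := by
    rw [integral_pos_iff_support_of_nonneg (fun x => ct_nonneg _ _ _) (ct_int μ _ _)]
    have hne : μ.support.Nonempty := Measure.nonempty_support (IsProbabilityMeasure.ne_zero μ)
    obtain ⟨x, hx, hcx⟩ := exists_lt_of_lt_csSup hne (show c < sSup μ.support by linarith)
    have h1 := (Measure.mem_support_iff_forall x).1 hx (Set.Ioi c) (Ioi_mem_nhds hcx)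
    refine lt_of_lt_of_le h1 (measure_mono fun y hy => ?_)
    exact (ct_pos one_pos hy).ne'
  refine ⟨(∫ x, ct c 1 x ∂μ) / 2, by positivity, ?_⟩
  filter_upwards [(ha.weak _ (ct_cont c 1) (ct_bdd c 1)).eventually
    (lt_mem_nhds (half_lt_self hpos))] with N hN i hi
  by_contra hlt
  push Not at hlt
  have hN0 : 0 < N := i.pos
  have hN' : (0 : ℝ) < N := by positivity
  have h1 : ∑ j, ct c 1 (a N j) ≤ (i : ℕ) := by
    have h2 : ∑ j, ct c 1 (a N j) = ∑ j ∈ Finset.Iio i, ct c 1 (a N j) := by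
      symm
      refine Finset.sum_subset (Finset.subset_univ _) fun j _ hj => ?_
      rw [Finset.mem_Iio, not_lt] at hj
      exact ct_eq_zero one_pos ((ha' N hj).trans hlt)
    rw [h2]
    calc ∑ j ∈ Finset.Iio i, ct c 1 (a N j) ≤ ∑ j ∈ Finset.Iio i, (1 : ℝ) :=
          Finset.sum_le_sum fun j _ => ct_le_one _ _ _
      _ = (i : ℕ) := by
          rw [Finset.sum_const, Fin.card_Iio]
          simp
  have h3 : 1 / (N : ℝ) * ∑ j, ct c 1 (a N j) ≤ 1 / N * (i : ℕ) := by gcongr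
  have h4 : (∫ x, ct c 1 x ∂μ) / 2 * N < (i : ℕ) := by
    have : (∫ x, ct c 1 x ∂μ) / 2 < 1 / N * (i : ℕ) := lt_of_lt_of_le hN h3
    rw [one_div, ← div_eq_inv_mul, lt_div_iff₀ hN'] at this
    exact this
  linarith

/-- the averaged distance of the pressures, sorted eigenvalues -/
theorem l1_lim {μ : Measure ℝ} [IsProbabilityMeasure μ] {a b : ∀ N : ℕ, Fin N → ℝ}
    (ha : Spectra μ a) (hb : Spectra μ b) (ha' : ∀ N, Antitone (a N)) (hb' : ∀ N, Antitone (b N))
    [∀ N : ℕ, MeasurableSpace (orthogonalGroup (Fin N) ℝ)]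
    [∀ N : ℕ, BorelSpace (orthogonalGroup (Fin N) ℝ)]
    (ν : ∀ N : ℕ, Measure (orthogonalGroup (Fin N) ℝ)) [∀ N, IsProbabilityMeasure (ν N)]
    [∀ N, (ν N).IsMulLeftInvariant] {β : ℝ} (hβ : 0 ≤ β) :
    Tendsto (fun N : ℕ => ∫ U : orthogonalGroup (Fin N) ℝ,
      |pressure β (a N) U - pressure β (b N) U| ∂(ν N)) atTop (𝓝 0) := by
  rw [Metric.tendsto_nhds]
  intro ε hε
  set δ := ε / (4 * (β + 1)) with hδ
  have hδ0 : 0 < δ := by positivity
  obtain ⟨η₁, hη₁, e1⟩ := top_lim ha ha' hδ0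
  obtain ⟨η₂, hη₂, e2⟩ := top_lim hb hb' hδ0
  have e3 := ev_le ha (c := sSup μ.support + δ) (by linarith)
  have e4 := ev_le hb (c := sSup μ.support + δ) (by linarith)
  set η := min η₁ η₂ with hη
  have hη0 : 0 < η := lt_min hη₁ hη₂
  have e5 := ((w_lim ha hb ha' hb').const_mul (β / η)).eventually
    (gt_mem_nhds (show β / η * 0 < ε / 2 by simpa using half_pos hε))
  filter_upwards [e1, e2, e3, e4, e5] with N n1 n2 n3 n4 n5
  have hint : 0 ≤ ∫ U : orthogonalGroup (Fin N) ℝ,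
      |pressure β (a N) U - pressure β (b N) U| ∂(ν N) := integral_nonneg fun U => abs_nonneg _
  rw [Real.dist_eq, sub_zero, abs_of_nonneg hint]
  have hb1 := l1_bound (ν N) hβ (ha' N) (hb' N) (δ := 2 * δ) (η := η) (by positivity) hη0
    (fun i hi => by
      have hNr : (0 : ℝ) ≤ N := Nat.cast_nonneg N
      have m1 := n1 i (hi.trans (mul_le_mul_of_nonneg_right (min_le_left _ _) hNr))
      have m2 := n2 i (hi.trans (mul_le_mul_of_nonneg_right (min_le_right _ _) hNr))
      have m3 := n3 i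
      have m4 := n4 i
      rw [abs_le]
      constructor <;> linarith)
  have hb2 : β * (2 * δ) ≤ ε / 2 := by
    rw [hδ]
    have : β * (2 * (ε / (4 * (β + 1)))) = (ε / 2) * (β / (β + 1)) := by
      field_simp
      ring
    rw [this]
    have h3 : β / (β + 1) ≤ 1 := by
      rw [div_le_one (by positivity)]
      linarith
    nlinarith
  linarith

end Vale.Agent.P166U
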