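import Vale.Agent.Lib.P166U.D

/-!
# P166: universality of the pressure in the eigenvalues, laws and random eigenvalues
-/

namespace Vale.Agent.P166U

open MeasureTheory Filter Topology Matrix

/-- a cutoff of the distance to `c` -/
noncomputable def ph (c δ x : ℝ) : ℝ := min δ (max 0 (|x - c| - δ))

theorem ph_lip (c δ : ℝ) : LipschitzWith 1 (ph c δ) := by
  refine LipschitzWith.of_dist_le_mul fun x y => ?_
  rw [NNReal.coe_one, one_mul, Real.dist_eq, Real.dist_eq]
  unfold ph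
  refine (abs_min_sub_min_le_max _ _ _ _).trans ?_
  rw [sub_self, abs_zero]
  refine max_le (abs_nonneg _) ?_
  refine (abs_max_sub_max_le_max _ _ _ _).trans ?_
  rw [sub_self, abs_zero]
  refine max_le (abs_nonneg _) ?_
  have h1 : |x - c| - δ - (|y - c| - δ) = |x - c| - |y - c| := by ring
  rw [h1]
  refine (abs_abs_sub_abs_le _ _).trans (le_of_eq ?_)
  congr 1
  ring

theorem ph_nonneg {c δ : ℝ} (hδ : 0 ≤ δ) (x : ℝ) : 0 ≤ ph c δ x := le_min hδ (le_max_left _ _)

theorem ph_le {c δ : ℝ} (x : ℝ) : ph c δ x ≤ δ := min_le_left _ _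

theorem ph_zero {c δ x : ℝ} (hδ : 0 ≤ δ) (h : |x - c| ≤ δ) : ph c δ x = 0 := by
  unfold ph
  rw [max_eq_left (by linarith)]
  exact min_eq_right hδ

theorem ph_one {c δ x : ℝ} (h : 2 * δ ≤ |x - c|) : ph c δ x = δ := by
  unfold ph
  exact min_eq_left (le_max_of_le_right (by linarith))

theorem conv_iff {α : ℕ → Type} [∀ N, MeasurableSpace (α N)] (ρ : ∀ N, Measure (α N))
    [∀ N, IsProbabilityMeasure (ρ N)] (f : ∀ N, α N → ℝ) (hf : ∀ N, Measurable (f N)) (c : ℝ) :
    (∀ δ : ℝ, 0 < δ → Tendsto (fun N => ρ N {x | δ ≤ |f N x - c|}) atTop (𝓝 0)) ↔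
      ∀ δ : ℝ, 0 < δ → Tendsto (fun N => ∫ x, ph c δ (f N x) ∂ρ N) atTop (𝓝 0) := by
  have hms : ∀ N δ, MeasurableSet {x | δ ≤ |f N x - c|} := fun N δ =>
    measurableSet_le measurable_const ((hf N).sub measurable_const).abs
  have hint : ∀ N δ, 0 < δ → Integrable (fun x => ph c δ (f N x)) (ρ N) := by
    intro N δ hδ
    refine Integrable.of_bound
      (((ph_lip c δ).continuous.measurable.comp (hf N)).aestronglyMeasurable) δ ?_
    filter_upwards with x
    rw [Real.norm_eq_abs, abs_of_nonneg (ph_nonneg hδ.le _)]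
    exact ph_le _
  have hup : ∀ N δ, 0 < δ → ∫ x, ph c δ (f N x) ∂ρ N ≤
      δ * (ρ N).real {x | δ ≤ |f N x - c|} := by
    intro N δ hδ
    have h1 : ∫ x, {x | δ ≤ |f N x - c|}.indicator (fun _ => δ) x ∂ρ N =
        δ * (ρ N).real {x | δ ≤ |f N x - c|} := by
      rw [integral_indicator_const _ (hms N δ), smul_eq_mul, mul_comm]
    rw [← h1]
    refine integral_mono (hint N δ hδ) ((integrable_const δ).indicator (hms N δ)) fun x => ?_
    simp only
    by_cases hx : δ ≤ |f N x - c|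
    · rw [Set.indicator_of_mem (show x ∈ {x | δ ≤ |f N x - c|} from hx)]
      exact ph_le _
    · rw [Set.indicator_of_notMem (show x ∉ {x | δ ≤ |f N x - c|} from hx)]
      exact (ph_zero hδ.le (not_le.1 hx).le).le
  have hlow : ∀ N δ, 0 < δ → δ * (ρ N).real {x | 2 * δ ≤ |f N x - c|} ≤
      ∫ x, ph c δ (f N x) ∂ρ N := by
    intro N δ hδ
    have h1 : ∫ x, {x | 2 * δ ≤ |f N x - c|}.indicator (fun _ => δ) x ∂ρ N =
        δ * (ρ N).real {x | 2 * δ ≤ |f N x - c|} := by
      rw [integral_indicator_const _ (hms N _), smul_eq_mul, mul_comm]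
    rw [← h1]
    refine integral_mono ((integrable_const δ).indicator (hms N _)) (hint N δ hδ) fun x => ?_
    simp only
    by_cases hx : 2 * δ ≤ |f N x - c|
    · rw [Set.indicator_of_mem (show x ∈ {x | 2 * δ ≤ |f N x - c|} from hx), ph_one hx]
    · rw [Set.indicator_of_notMem (show x ∉ {x | 2 * δ ≤ |f N x - c|} from hx)]
      exact ph_nonneg hδ.le _
  constructor
  · intro h δ hδ
    have h1 := (ENNReal.tendsto_toReal_zero_iff (fun N => measure_ne_top _ _)).2 (h δ hδ)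
    have h2 := h1.const_mul δ
    rw [mul_zero] at h2
    exact squeeze_zero (fun N => integral_nonneg fun x => ph_nonneg hδ.le _)
      (fun N => hup N δ hδ) h2
  · intro h δ hδ
    refine (ENNReal.tendsto_toReal_zero_iff (fun N => measure_ne_top _ _)).1 ?_
    have h1 := (h (δ / 2) (by positivity)).const_mul (2 / δ)
    rw [mul_zero] at h1
    refine squeeze_zero (fun N => ENNReal.toReal_nonneg) (fun N => ?_) h1
    have h2 := hlow N (δ / 2) (by positivity)
    have h3 : 2 * (δ / 2) = δ := by ring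
    rw [h3] at h2
    calc (ρ N {x | δ ≤ |f N x - c|}).toReal =
        2 / δ * (δ / 2 * (ρ N).real {x | δ ≤ |f N x - c|}) := by
          rw [Measure.real]
          field_simp
      _ ≤ _ := by gcongr

theorem continuous_uncurry (N : ℕ) (β : ℝ) :
    Continuous fun q : (Fin N → ℝ) × orthogonalGroup (Fin N) ℝ => pressure β q.1 q.2 := by
  unfold pressure
  simp only [quad]
  refine continuous_const.mul (Continuous.log ?_ fun q => ?_)
  · refine continuous_const.mul (continuous_finsetSum _ fun σ _ => Continuous.rexp ?_)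
    refine continuous_const.mul (continuous_finsetSum _ fun i _ => ?_)
    refine ((continuous_apply i).comp continuous_fst).mul (Continuous.pow ?_ 2)
    exact (continuous_apply i).comp
      (Continuous.matrix_mulVec (continuous_subtype_val.comp continuous_snd) continuous_const)
  · exact (mul_pos (by positivity) (Z_pos β q.1 q.2)).ne'

section

variable [∀ N : ℕ, MeasurableSpace (orthogonalGroup (Fin N) ℝ)]
    [∀ N : ℕ, BorelSpace (orthogonalGroup (Fin N) ℝ)]
    (ν : ∀ N : ℕ, Measure (orthogonalGroup (Fin N) ℝ)) [∀ N, IsProbabilityMeasure (ν N)]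
    [∀ N, (ν N).IsMulLeftInvariant]

theorem law_close {μ : Measure ℝ} [IsProbabilityMeasure μ] {lam lam' : ∀ N : ℕ, Fin N → ℝ}
    (h : Spectra μ lam) (h' : Spectra μ lam') {β : ℝ} (hβ : 0 ≤ β) :
    ∃ ε : ℕ → ℝ, Tendsto ε atTop (𝓝 0) ∧ ∀ (N : ℕ) (φ : ℝ → ℝ), LipschitzWith 1 φ →
      |∫ U : orthogonalGroup (Fin N) ℝ, φ (pressure β (lam N) U) ∂ν N -
        ∫ U : orthogonalGroup (Fin N) ℝ, φ (pressure β (lam' N) U) ∂ν N| ≤ ε N := by
  choose p hp using fun N => exists_sort (lam N)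
  choose q hq using fun N => exists_sort (lam' N)
  refine ⟨_, l1_lim (h.comp p) (h'.comp q) hp hq ν hβ, fun N φ hφ => ?_⟩
  rw [← int_perm (ν N) β (lam N) (p N) φ, ← int_perm (ν N) β (lam' N) (q N) φ,
    ← integral_sub (integrable_comp (ν N) hβ _ hφ) (integrable_comp (ν N) hβ _ hφ)]
  refine (abs_integral_le_integral_abs).trans ?_
  refine integral_mono ((integrable_comp (ν N) hβ _ hφ).sub (integrable_comp (ν N) hβ _ hφ)).abs
    ((integrable_pressure (ν N) hβ _).sub (integrable_pressure (ν N) hβ _)).abs fun U => ?_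
  have := hφ.dist_le_mul (pressure β (lam N ∘ p N) U) (pressure β (lam' N ∘ q N) U)
  rwa [Real.dist_eq, Real.dist_eq, NNReal.coe_one, one_mul] at this

/-- the averaged cutoff -/
noncomputable def cf (β c δ : ℝ) (N : ℕ) (l : Fin N → ℝ) : ℝ :=
  ∫ U : orthogonalGroup (Fin N) ℝ, ph c δ (pressure β l U) ∂(ν N)

theorem cf_mem {β c δ : ℝ} (hβ : 0 ≤ β) (hδ : 0 < δ) (N : ℕ) (l : Fin N → ℝ) :
    0 ≤ cf ν β c δ N l ∧ cf ν β c δ N l ≤ δ := by
  refine ⟨integral_nonneg fun U => ph_nonneg hδ.le _, ?_⟩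
  calc cf ν β c δ N l ≤ ∫ _U : orthogonalGroup (Fin N) ℝ, δ ∂(ν N) :=
        integral_mono (integrable_comp (ν N) hβ l (ph_lip c δ)) (integrable_const _)
          fun U => ph_le _
    _ = δ := by simp

theorem cf_close {μ : Measure ℝ} [IsProbabilityMeasure μ] {lam lam' : ∀ N : ℕ, Fin N → ℝ}
    (h : Spectra μ lam) (h' : Spectra μ lam') {β : ℝ} (hβ : 0 ≤ β) (c δ : ℝ) :
    Tendsto (fun N => cf ν β c δ N (lam N) - cf ν β c δ N (lam' N)) atTop (𝓝 0) := by
  obtain ⟨ε, hε, hb⟩ := law_close ν h h' hβ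
  exact squeeze_zero_norm (fun N => hb N (ph c δ) (ph_lip c δ)) hε

variable {Ω : Type} [MeasurableSpace Ω] (ℙ : Measure Ω) [IsProbabilityMeasure ℙ]

theorem meas_joint (β : ℝ) {N : ℕ} {X : Ω → Fin N → ℝ} (hX : Measurable X) :
    Measurable fun p : Ω × orthogonalGroup (Fin N) ℝ => pressure β (X p.1) p.2 := by
  have h1 : Measurable fun q : (Fin N → ℝ) × orthogonalGroup (Fin N) ℝ => pressure β q.1 q.2 :=
    (continuous_uncurry N β).measurable
  have h2 : Measurable fun p : Ω × orthogonalGroup (Fin N) ℝ => (X p.1, p.2) :=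
    (hX.comp measurable_fst).prodMk measurable_snd
  generalize hF : (fun q : (Fin N → ℝ) × orthogonalGroup (Fin N) ℝ => pressure β q.1 q.2) = F at h1
  have h3 : (fun p : Ω × orthogonalGroup (Fin N) ℝ => pressure β (X p.1) p.2) =
      fun p => F (X p.1, p.2) := by
    rw [← hF]
  rw [h3]
  exact h1.comp h2

theorem int_joint (β c : ℝ) {δ : ℝ} (hδ : 0 < δ) {N : ℕ} {X : Ω → Fin N → ℝ}
    (hX : Measurable X) : Integrable (fun p : Ω × orthogonalGroup (Fin N) ℝ =>
      ph c δ (pressure β (X p.1) p.2)) (ℙ.prod (ν N)) := by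
  refine Integrable.of_bound
    (((ph_lip c δ).continuous.measurable.comp (meas_joint β hX)).aestronglyMeasurable) δ ?_
  filter_upwards with x
  rw [Real.norm_eq_abs, abs_of_nonneg (ph_nonneg hδ.le _)]
  exact ph_le _

theorem fub (β c : ℝ) {δ : ℝ} (hδ : 0 < δ) {N : ℕ} {X : Ω → Fin N → ℝ} (hX : Measurable X) :
    ∫ p : Ω × orthogonalGroup (Fin N) ℝ, ph c δ (pressure β (X p.1) p.2) ∂(ℙ.prod (ν N)) =
      ∫ ω, cf ν β c δ N (X ω) ∂ℙ :=
  integral_prod _ (int_joint ν ℙ β c hδ hX)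

theorem cf_int (β c : ℝ) {δ : ℝ} (hδ : 0 < δ) {N : ℕ} {X : Ω → Fin N → ℝ} (hX : Measurable X) :
    Integrable (fun ω => cf ν β c δ N (X ω)) ℙ :=
  (int_joint ν ℙ β c hδ hX).integral_prod_left

theorem cf_lim {μ : Measure ℝ} [IsProbabilityMeasure μ] {lam : ∀ N : ℕ, Fin N → ℝ}
    (h : Spectra μ lam) {β : ℝ} (hβ : 0 ≤ β) {X : ∀ N : ℕ, Ω → Fin N → ℝ}
    (hX : ∀ N, Measurable (X N)) (hS : ∀ᵐ ω ∂ℙ, Spectra μ fun N => X N ω) (c : ℝ) {δ : ℝ}
    (hδ : 0 < δ) : Tendsto (fun N => ∫ p : Ω × orthogonalGroup (Fin N) ℝ,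
      ph c δ (pressure β (X N p.1) p.2) ∂(ℙ.prod (ν N)) - cf ν β c δ N (lam N)) atTop (𝓝 0) := by
  have hlim : Tendsto (fun N => ∫ ω, (cf ν β c δ N (X N ω) - cf ν β c δ N (lam N)) ∂ℙ) atTop
      (𝓝 (∫ _ω : Ω, (0 : ℝ) ∂ℙ)) := by
    refine tendsto_integral_of_dominated_convergence (fun _ => δ) (fun N => ?_)
      (integrable_const _) (fun N => ?_) ?_
    · exact ((cf_int ν ℙ β c hδ (hX N)).sub (integrable_const _)).aestronglyMeasurable
    · filter_upwards with ω
      rw [Real.norm_eq_abs, abs_le]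
      have a1 := cf_mem ν (c := c) hβ hδ N (X N ω)
      have a2 := cf_mem ν (c := c) hβ hδ N (lam N)
      constructor <;> linarith [a1.1, a1.2, a2.1, a2.2]
    · filter_upwards [hS] with ω hω
      exact cf_close ν hω h hβ c δ
  rw [integral_zero] at hlim
  refine hlim.congr fun N => ?_
  rw [integral_sub (cf_int ν ℙ β c hδ (hX N)) (integrable_const _), fub ν ℙ β c hδ (hX N)]
  simp

theorem random {μ : Measure ℝ} [IsProbabilityMeasure μ] {lam : ∀ N : ℕ, Fin N → ℝ}
    (h : Spectra μ lam) {β : ℝ} (hβ : 0 ≤ β) (X : ∀ N : ℕ, Ω → Fin N → ℝ)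
    (hX : ∀ N, Measurable (X N)) (hS : ∀ᵐ ω ∂ℙ, Spectra μ fun N => X N ω) (c : ℝ) :
    (∀ δ : ℝ, 0 < δ → Tendsto (fun N => (ℙ.prod (ν N))
      {p : Ω × orthogonalGroup (Fin N) ℝ | δ ≤ |pressure β (X N p.1) p.2 - c|}) atTop (𝓝 0)) ↔
    (∀ δ : ℝ, 0 < δ → Tendsto (fun N => ν N
      {U : orthogonalGroup (Fin N) ℝ | δ ≤ |pressure β (lam N) U - c|}) atTop (𝓝 0)) := by
  have hm1 : ∀ N, Measurable fun U : orthogonalGroup (Fin N) ℝ => pressure β (lam N) U :=
    fun N => ((continuous_pressure β (lam N)).comp continuous_subtype_val).measurable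
  rw [conv_iff (α := fun N => Ω × orthogonalGroup (Fin N) ℝ) (fun N => ℙ.prod (ν N))
    (fun N p => pressure β (X N p.1) p.2) (fun N => meas_joint β (hX N)) c,
    conv_iff (α := fun N => orthogonalGroup (Fin N) ℝ) ν
    (fun N U => pressure β (lam N) U) hm1 c]
  refine forall_congr' fun δ => forall_congr' fun hδ => ?_
  have hlim := cf_lim ν ℙ h hβ hX hS c hδ
  constructor
  · intro h1
    have h2 := h1.sub hlim
    rw [sub_zero] at h2
    refine h2.congr fun N => ?_
    rw [sub_sub_cancel]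
    rfl
  · intro h1
    have h1' : Tendsto (fun N => cf ν β c δ N (lam N)) atTop (𝓝 0) := h1
    have h2 := hlim.add h1'
    rw [zero_add] at h2
    refine h2.congr fun N => ?_
    rw [sub_add_cancel]

end

end Vale.Agent.P166U
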